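import Crest.Agent.H3.Snaky.Core

set_option autoImplicit false

namespace Crest.Agent.H3.Snaky

open Crest.CombinatoricsR.PolyominoGame

theorem copy_0 (s : ℕ) (hw : s % 22 + 5 ≤ 22) (X : Set Cell) (h0 : pt (s + 0) ∈ X) (h1 : pt (s + 1) ∈ X) (h2 : pt (s + 2) ∈ X) (h3 : pt (s + 3) ∈ X) (h4 : pt (s + 25) ∈ X) (h5 : pt (s + 26) ∈ X) : ContainsCopy X := by
  refine ⟨(((s % 22 : ℕ) : ℤ) + 0, ((s / 22 : ℕ) : ℤ) + 0), (1 : ℤ), (1 : ℤ), Or.inl rfl, Or.inl rfl, Or.inl fun p hp => ?_⟩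
  simp only [snaky, Finset.mem_insert, Finset.mem_singleton] at hp
  rcases hp with rfl | rfl | rfl | rfl | rfl | rfl
  · convert h0 using 1; simp only [pt, Prod.mk.injEq]; constructor <;> omega
  · convert h1 using 1; simp only [pt, Prod.mk.injEq]; constructor <;> omega
  · convert h2 using 1; simp only [pt, Prod.mk.injEq]; constructor <;> omega
  · convert h3 using 1; simp only [pt, Prod.mk.injEq]; constructor <;> omega
  · convert h4 using 1; simp only [pt, Prod.mk.injEq]; constructor <;> omega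
  · convert h5 using 1; simp only [pt, Prod.mk.injEq]; constructor <;> omega

theorem copy_1 (s : ℕ) (hw : s % 22 + 5 ≤ 22) (X : Set Cell) (h0 : pt (s + 4) ∈ X) (h1 : pt (s + 3) ∈ X) (h2 : pt (s + 2) ∈ X) (h3 : pt (s + 1) ∈ X) (h4 : pt (s + 23) ∈ X) (h5 : pt (s + 22) ∈ X) : ContainsCopy X := by
  refine ⟨(((s % 22 : ℕ) : ℤ) + 4, ((s / 22 : ℕ) : ℤ) + 0), (-1 : ℤ), (1 : ℤ), Or.inr rfl, Or.inl rfl, Or.inl fun p hp => ?_⟩
  simp only [snaky, Finset.mem_insert, Finset.mem_singleton] at hp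
  rcases hp with rfl | rfl | rfl | rfl | rfl | rfl
  · convert h0 using 1; simp only [pt, Prod.mk.injEq]; constructor <;> omega
  · convert h1 using 1; simp only [pt, Prod.mk.injEq]; constructor <;> omega
  · convert h2 using 1; simp only [pt, Prod.mk.injEq]; constructor <;> omega
  · convert h3 using 1; simp only [pt, Prod.mk.injEq]; constructor <;> omega
  · convert h4 using 1; simp only [pt, Prod.mk.injEq]; constructor <;> omega
  · convert h5 using 1; simp only [pt, Prod.mk.injEq]; constructor <;> omega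

theorem copy_2 (s : ℕ) (hw : s % 22 + 5 ≤ 22) (X : Set Cell) (h0 : pt (s + 22) ∈ X) (h1 : pt (s + 23) ∈ X) (h2 : pt (s + 24) ∈ X) (h3 : pt (s + 25) ∈ X) (h4 : pt (s + 3) ∈ X) (h5 : pt (s + 4) ∈ X) : ContainsCopy X := by
  refine ⟨(((s % 22 : ℕ) : ℤ) + 0, ((s / 22 : ℕ) : ℤ) + 1), (1 : ℤ), (-1 : ℤ), Or.inl rfl, Or.inr rfl, Or.inl fun p hp => ?_⟩
  simp only [snaky, Finset.mem_insert, Finset.mem_singleton] at hp
  rcases hp with rfl | rfl | rfl | rfl | rfl | rfl
  · convert h0 using 1; simp only [pt, Prod.mk.injEq]; constructor <;> omega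
  · convert h1 using 1; simp only [pt, Prod.mk.injEq]; constructor <;> omega
  · convert h2 using 1; simp only [pt, Prod.mk.injEq]; constructor <;> omega
  · convert h3 using 1; simp only [pt, Prod.mk.injEq]; constructor <;> omega
  · convert h4 using 1; simp only [pt, Prod.mk.injEq]; constructor <;> omega
  · convert h5 using 1; simp only [pt, Prod.mk.injEq]; constructor <;> omega

theorem copy_3 (s : ℕ) (hw : s % 22 + 5 ≤ 22) (X : Set Cell) (h0 : pt (s + 26) ∈ X) (h1 : pt (s + 25) ∈ X) (h2 : pt (s + 24) ∈ X) (h3 : pt (s + 23) ∈ X) (h4 : pt (s + 1) ∈ X) (h5 : pt (s + 0) ∈ X) : ContainsCopy X := by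
  refine ⟨(((s % 22 : ℕ) : ℤ) + 4, ((s / 22 : ℕ) : ℤ) + 1), (-1 : ℤ), (-1 : ℤ), Or.inr rfl, Or.inr rfl, Or.inl fun p hp => ?_⟩
  simp only [snaky, Finset.mem_insert, Finset.mem_singleton] at hp
  rcases hp with rfl | rfl | rfl | rfl | rfl | rfl
  · convert h0 using 1; simp only [pt, Prod.mk.injEq]; constructor <;> omega
  · convert h1 using 1; simp only [pt, Prod.mk.injEq]; constructor <;> omega
  · convert h2 using 1; simp only [pt, Prod.mk.injEq]; constructor <;> omega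
  · convert h3 using 1; simp only [pt, Prod.mk.injEq]; constructor <;> omega
  · convert h4 using 1; simp only [pt, Prod.mk.injEq]; constructor <;> omega
  · convert h5 using 1; simp only [pt, Prod.mk.injEq]; constructor <;> omega

theorem copy_4 (s : ℕ) (hw : s % 22 + 2 ≤ 22) (X : Set Cell) (h0 : pt (s + 0) ∈ X) (h1 : pt (s + 22) ∈ X) (h2 : pt (s + 44) ∈ X) (h3 : pt (s + 66) ∈ X) (h4 : pt (s + 67) ∈ X) (h5 : pt (s + 89) ∈ X) : ContainsCopy X := by
  refine ⟨(((s % 22 : ℕ) : ℤ) + 0, ((s / 22 : ℕ) : ℤ) + 0), (1 : ℤ), (1 : ℤ), Or.inl rfl, Or.inl rfl, Or.inr fun p hp => ?_⟩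
  simp only [snaky, Finset.mem_insert, Finset.mem_singleton] at hp
  rcases hp with rfl | rfl | rfl | rfl | rfl | rfl
  · convert h0 using 1; simp only [pt, Prod.mk.injEq]; constructor <;> omega
  · convert h1 using 1; simp only [pt, Prod.mk.injEq]; constructor <;> omega
  · convert h2 using 1; simp only [pt, Prod.mk.injEq]; constructor <;> omega
  · convert h3 using 1; simp only [pt, Prod.mk.injEq]; constructor <;> omega
  · convert h4 using 1; simp only [pt, Prod.mk.injEq]; constructor <;> omega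
  · convert h5 using 1; simp only [pt, Prod.mk.injEq]; constructor <;> omega

theorem copy_5 (s : ℕ) (hw : s % 22 + 2 ≤ 22) (X : Set Cell) (h0 : pt (s + 88) ∈ X) (h1 : pt (s + 66) ∈ X) (h2 : pt (s + 44) ∈ X) (h3 : pt (s + 22) ∈ X) (h4 : pt (s + 23) ∈ X) (h5 : pt (s + 1) ∈ X) : ContainsCopy X := by
  refine ⟨(((s % 22 : ℕ) : ℤ) + 0, ((s / 22 : ℕ) : ℤ) + 4), (1 : ℤ), (-1 : ℤ), Or.inl rfl, Or.inr rfl, Or.inr fun p hp => ?_⟩
  simp only [snaky, Finset.mem_insert, Finset.mem_singleton] at hp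
  rcases hp with rfl | rfl | rfl | rfl | rfl | rfl
  · convert h0 using 1; simp only [pt, Prod.mk.injEq]; constructor <;> omega
  · convert h1 using 1; simp only [pt, Prod.mk.injEq]; constructor <;> omega
  · convert h2 using 1; simp only [pt, Prod.mk.injEq]; constructor <;> omega
  · convert h3 using 1; simp only [pt, Prod.mk.injEq]; constructor <;> omega
  · convert h4 using 1; simp only [pt, Prod.mk.injEq]; constructor <;> omega
  · convert h5 using 1; simp only [pt, Prod.mk.injEq]; constructor <;> omega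

theorem copy_6 (s : ℕ) (hw : s % 22 + 2 ≤ 22) (X : Set Cell) (h0 : pt (s + 1) ∈ X) (h1 : pt (s + 23) ∈ X) (h2 : pt (s + 45) ∈ X) (h3 : pt (s + 67) ∈ X) (h4 : pt (s + 66) ∈ X) (h5 : pt (s + 88) ∈ X) : ContainsCopy X := by
  refine ⟨(((s % 22 : ℕ) : ℤ) + 1, ((s / 22 : ℕ) : ℤ) + 0), (-1 : ℤ), (1 : ℤ), Or.inr rfl, Or.inl rfl, Or.inr fun p hp => ?_⟩
  simp only [snaky, Finset.mem_insert, Finset.mem_singleton] at hp
  rcases hp with rfl | rfl | rfl | rfl | rfl | rfl
  · convert h0 using 1; simp only [pt, Prod.mk.injEq]; constructor <;> omega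
  · convert h1 using 1; simp only [pt, Prod.mk.injEq]; constructor <;> omega
  · convert h2 using 1; simp only [pt, Prod.mk.injEq]; constructor <;> omega
  · convert h3 using 1; simp only [pt, Prod.mk.injEq]; constructor <;> omega
  · convert h4 using 1; simp only [pt, Prod.mk.injEq]; constructor <;> omega
  · convert h5 using 1; simp only [pt, Prod.mk.injEq]; constructor <;> omega

theorem copy_7 (s : ℕ) (hw : s % 22 + 2 ≤ 22) (X : Set Cell) (h0 : pt (s + 89) ∈ X) (h1 : pt (s + 67) ∈ X) (h2 : pt (s + 45) ∈ X) (h3 : pt (s + 23) ∈ X) (h4 : pt (s + 22) ∈ X) (h5 : pt (s + 0) ∈ X) : ContainsCopy X := by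
  refine ⟨(((s % 22 : ℕ) : ℤ) + 1, ((s / 22 : ℕ) : ℤ) + 4), (-1 : ℤ), (-1 : ℤ), Or.inr rfl, Or.inr rfl, Or.inr fun p hp => ?_⟩
  simp only [snaky, Finset.mem_insert, Finset.mem_singleton] at hp
  rcases hp with rfl | rfl | rfl | rfl | rfl | rfl
  · convert h0 using 1; simp only [pt, Prod.mk.injEq]; constructor <;> omega
  · convert h1 using 1; simp only [pt, Prod.mk.injEq]; constructor <;> omega
  · convert h2 using 1; simp only [pt, Prod.mk.injEq]; constructor <;> omega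
  · convert h3 using 1; simp only [pt, Prod.mk.injEq]; constructor <;> omega
  · convert h4 using 1; simp only [pt, Prod.mk.injEq]; constructor <;> omega
  · convert h5 using 1; simp only [pt, Prod.mk.injEq]; constructor <;> omega

theorem tb (R s d : ℕ) (h : R.testBit d = true) : (R <<< s).testBit (s + d) = true := by
  simp [Nat.testBit_shiftLeft, h]

theorem leafOK (R a : ℕ) (hcopy : ∀ X : Set Cell, (∀ c, R.testBit c = true → pt c ∈ X) → pt a ∈ X → ContainsCopy X) :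
    PatOK R (1 <<< a) 1 := by
  intro M B hM hB hd hR hA
  by_cases ha : pt a ∈ M
  · exact FW.of_copy (hcopy M hR ha)
  · refine Or.inr ⟨pt a, ha, hA a ?_, fun b _ _ _ => ?_⟩
    · simp [Nat.testBit_shiftLeft]
    · exact hcopy _ (fun c hc => Or.inr (hR c hc)) (Or.inl rfl)

theorem lf_0 (s : ℕ) (hw : s % 22 + 5 ≤ 22) : PatOK (0x600000e <<< s) (1 <<< (s + 0)) 1 := by
  refine leafOK _ _ fun X hX ha => copy_0 s hw X ha (hX _ (tb _ _ _ (by decide))) (hX _ (tb _ _ _ (by decide))) (hX _ (tb _ _ _ (by decide))) (hX _ (tb _ _ _ (by decide))) (hX _ (tb _ _ _ (by decide)))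

theorem lf_1 (s : ℕ) (hw : s % 22 + 5 ≤ 22) : PatOK (0x600000d <<< s) (1 <<< (s + 1)) 1 := by
  refine leafOK _ _ fun X hX ha => copy_0 s hw X (hX _ (tb _ _ _ (by decide))) ha (hX _ (tb _ _ _ (by decide))) (hX _ (tb _ _ _ (by decide))) (hX _ (tb _ _ _ (by decide))) (hX _ (tb _ _ _ (by decide)))

theorem lf_2 (s : ℕ) (hw : s % 22 + 5 ≤ 22) : PatOK (0x600000b <<< s) (1 <<< (s + 2)) 1 := by
  refine leafOK _ _ fun X hX ha => copy_0 s hw X (hX _ (tb _ _ _ (by decide))) (hX _ (tb _ _ _ (by decide))) ha (hX _ (tb _ _ _ (by decide))) (hX _ (tb _ _ _ (by decide))) (hX _ (tb _ _ _ (by decide)))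

theorem lf_3 (s : ℕ) (hw : s % 22 + 5 ≤ 22) : PatOK (0x6000007 <<< s) (1 <<< (s + 3)) 1 := by
  refine leafOK _ _ fun X hX ha => copy_0 s hw X (hX _ (tb _ _ _ (by decide))) (hX _ (tb _ _ _ (by decide))) (hX _ (tb _ _ _ (by decide))) ha (hX _ (tb _ _ _ (by decide))) (hX _ (tb _ _ _ (by decide)))

theorem lf_4 (s : ℕ) (hw : s % 22 + 5 ≤ 22) : PatOK (0x400000f <<< s) (1 <<< (s + 25)) 1 := by
  refine leafOK _ _ fun X hX ha => copy_0 s hw X (hX _ (tb _ _ _ (by decide))) (hX _ (tb _ _ _ (by decide))) (hX _ (tb _ _ _ (by decide))) (hX _ (tb _ _ _ (by decide))) ha (hX _ (tb _ _ _ (by decide)))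

theorem lf_5 (s : ℕ) (hw : s % 22 + 5 ≤ 22) : PatOK (0x200000f <<< s) (1 <<< (s + 26)) 1 := by
  refine leafOK _ _ fun X hX ha => copy_0 s hw X (hX _ (tb _ _ _ (by decide))) (hX _ (tb _ _ _ (by decide))) (hX _ (tb _ _ _ (by decide))) (hX _ (tb _ _ _ (by decide))) (hX _ (tb _ _ _ (by decide))) ha

theorem lf_6 (s : ℕ) (hw : s % 22 + 5 ≤ 22) : PatOK (0xc0000e <<< s) (1 <<< (s + 4)) 1 := by
  refine leafOK _ _ fun X hX ha => copy_1 s hw X ha (hX _ (tb _ _ _ (by decide))) (hX _ (tb _ _ _ (by decide))) (hX _ (tb _ _ _ (by decide))) (hX _ (tb _ _ _ (by decide))) (hX _ (tb _ _ _ (by decide)))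

theorem lf_7 (s : ℕ) (hw : s % 22 + 5 ≤ 22) : PatOK (0xc00016 <<< s) (1 <<< (s + 3)) 1 := by
  refine leafOK _ _ fun X hX ha => copy_1 s hw X (hX _ (tb _ _ _ (by decide))) ha (hX _ (tb _ _ _ (by decide))) (hX _ (tb _ _ _ (by decide))) (hX _ (tb _ _ _ (by decide))) (hX _ (tb _ _ _ (by decide)))

theorem lf_8 (s : ℕ) (hw : s % 22 + 5 ≤ 22) : PatOK (0xc0001a <<< s) (1 <<< (s + 2)) 1 := by
  refine leafOK _ _ fun X hX ha => copy_1 s hw X (hX _ (tb _ _ _ (by decide))) (hX _ (tb _ _ _ (by decide))) ha (hX _ (tb _ _ _ (by decide))) (hX _ (tb _ _ _ (by decide))) (hX _ (tb _ _ _ (by decide)))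

theorem lf_9 (s : ℕ) (hw : s % 22 + 5 ≤ 22) : PatOK (0xc0001c <<< s) (1 <<< (s + 1)) 1 := by
  refine leafOK _ _ fun X hX ha => copy_1 s hw X (hX _ (tb _ _ _ (by decide))) (hX _ (tb _ _ _ (by decide))) (hX _ (tb _ _ _ (by decide))) ha (hX _ (tb _ _ _ (by decide))) (hX _ (tb _ _ _ (by decide)))

theorem lf_10 (s : ℕ) (hw : s % 22 + 5 ≤ 22) : PatOK (0x40001e <<< s) (1 <<< (s + 23)) 1 := by
  refine leafOK _ _ fun X hX ha => copy_1 s hw X (hX _ (tb _ _ _ (by decide))) (hX _ (tb _ _ _ (by decide))) (hX _ (tb _ _ _ (by decide))) (hX _ (tb _ _ _ (by decide))) ha (hX _ (tb _ _ _ (by decide)))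

theorem lf_11 (s : ℕ) (hw : s % 22 + 5 ≤ 22) : PatOK (0x80001e <<< s) (1 <<< (s + 22)) 1 := by
  refine leafOK _ _ fun X hX ha => copy_1 s hw X (hX _ (tb _ _ _ (by decide))) (hX _ (tb _ _ _ (by decide))) (hX _ (tb _ _ _ (by decide))) (hX _ (tb _ _ _ (by decide))) (hX _ (tb _ _ _ (by decide))) ha

theorem lf_12 (s : ℕ) (hw : s % 22 + 5 ≤ 22) : PatOK (0x3800018 <<< s) (1 <<< (s + 22)) 1 := by
  refine leafOK _ _ fun X hX ha => copy_2 s hw X ha (hX _ (tb _ _ _ (by decide))) (hX _ (tb _ _ _ (by decide))) (hX _ (tb _ _ _ (by decide))) (hX _ (tb _ _ _ (by decide))) (hX _ (tb _ _ _ (by decide)))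

theorem lf_13 (s : ℕ) (hw : s % 22 + 5 ≤ 22) : PatOK (0x3400018 <<< s) (1 <<< (s + 23)) 1 := by
  refine leafOK _ _ fun X hX ha => copy_2 s hw X (hX _ (tb _ _ _ (by decide))) ha (hX _ (tb _ _ _ (by decide))) (hX _ (tb _ _ _ (by decide))) (hX _ (tb _ _ _ (by decide))) (hX _ (tb _ _ _ (by decide)))

theorem lf_14 (s : ℕ) (hw : s % 22 + 5 ≤ 22) : PatOK (0x2c00018 <<< s) (1 <<< (s + 24)) 1 := by
  refine leafOK _ _ fun X hX ha => copy_2 s hw X (hX _ (tb _ _ _ (by decide))) (hX _ (tb _ _ _ (by decide))) ha (hX _ (tb _ _ _ (by decide))) (hX _ (tb _ _ _ (by decide))) (hX _ (tb _ _ _ (by decide)))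

theorem lf_15 (s : ℕ) (hw : s % 22 + 5 ≤ 22) : PatOK (0x1c00018 <<< s) (1 <<< (s + 25)) 1 := by
  refine leafOK _ _ fun X hX ha => copy_2 s hw X (hX _ (tb _ _ _ (by decide))) (hX _ (tb _ _ _ (by decide))) (hX _ (tb _ _ _ (by decide))) ha (hX _ (tb _ _ _ (by decide))) (hX _ (tb _ _ _ (by decide)))

theorem lf_16 (s : ℕ) (hw : s % 22 + 5 ≤ 22) : PatOK (0x3c00010 <<< s) (1 <<< (s + 3)) 1 := by
  refine leafOK _ _ fun X hX ha => copy_2 s hw X (hX _ (tb _ _ _ (by decide))) (hX _ (tb _ _ _ (by decide))) (hX _ (tb _ _ _ (by decide))) (hX _ (tb _ _ _ (by decide))) ha (hX _ (tb _ _ _ (by decide)))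

theorem lf_17 (s : ℕ) (hw : s % 22 + 5 ≤ 22) : PatOK (0x3c00008 <<< s) (1 <<< (s + 4)) 1 := by
  refine leafOK _ _ fun X hX ha => copy_2 s hw X (hX _ (tb _ _ _ (by decide))) (hX _ (tb _ _ _ (by decide))) (hX _ (tb _ _ _ (by decide))) (hX _ (tb _ _ _ (by decide))) (hX _ (tb _ _ _ (by decide))) ha

theorem lf_18 (s : ℕ) (hw : s % 22 + 5 ≤ 22) : PatOK (0x3800003 <<< s) (1 <<< (s + 26)) 1 := by
  refine leafOK _ _ fun X hX ha => copy_3 s hw X ha (hX _ (tb _ _ _ (by decide))) (hX _ (tb _ _ _ (by decide))) (hX _ (tb _ _ _ (by decide))) (hX _ (tb _ _ _ (by decide))) (hX _ (tb _ _ _ (by decide)))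

theorem lf_19 (s : ℕ) (hw : s % 22 + 5 ≤ 22) : PatOK (0x5800003 <<< s) (1 <<< (s + 25)) 1 := by
  refine leafOK _ _ fun X hX ha => copy_3 s hw X (hX _ (tb _ _ _ (by decide))) ha (hX _ (tb _ _ _ (by decide))) (hX _ (tb _ _ _ (by decide))) (hX _ (tb _ _ _ (by decide))) (hX _ (tb _ _ _ (by decide)))

theorem lf_20 (s : ℕ) (hw : s % 22 + 5 ≤ 22) : PatOK (0x6800003 <<< s) (1 <<< (s + 24)) 1 := by
  refine leafOK _ _ fun X hX ha => copy_3 s hw X (hX _ (tb _ _ _ (by decide))) (hX _ (tb _ _ _ (by decide))) ha (hX _ (tb _ _ _ (by decide))) (hX _ (tb _ _ _ (by decide))) (hX _ (tb _ _ _ (by decide)))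

theorem lf_21 (s : ℕ) (hw : s % 22 + 5 ≤ 22) : PatOK (0x7000003 <<< s) (1 <<< (s + 23)) 1 := by
  refine leafOK _ _ fun X hX ha => copy_3 s hw X (hX _ (tb _ _ _ (by decide))) (hX _ (tb _ _ _ (by decide))) (hX _ (tb _ _ _ (by decide))) ha (hX _ (tb _ _ _ (by decide))) (hX _ (tb _ _ _ (by decide)))

theorem lf_22 (s : ℕ) (hw : s % 22 + 5 ≤ 22) : PatOK (0x7800001 <<< s) (1 <<< (s + 1)) 1 := by
  refine leafOK _ _ fun X hX ha => copy_3 s hw X (hX _ (tb _ _ _ (by decide))) (hX _ (tb _ _ _ (by decide))) (hX _ (tb _ _ _ (by decide))) (hX _ (tb _ _ _ (by decide))) ha (hX _ (tb _ _ _ (by decide)))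

theorem lf_23 (s : ℕ) (hw : s % 22 + 5 ≤ 22) : PatOK (0x7800002 <<< s) (1 <<< (s + 0)) 1 := by
  refine leafOK _ _ fun X hX ha => copy_3 s hw X (hX _ (tb _ _ _ (by decide))) (hX _ (tb _ _ _ (by decide))) (hX _ (tb _ _ _ (by decide))) (hX _ (tb _ _ _ (by decide))) (hX _ (tb _ _ _ (by decide))) ha

theorem lf_24 (s : ℕ) (hw : s % 22 + 2 ≤ 22) : PatOK (0x200000c0000100000400000 <<< s) (1 <<< (s + 0)) 1 := by
  refine leafOK _ _ fun X hX ha => copy_4 s hw X ha (hX _ (tb _ _ _ (by decide))) (hX _ (tb _ _ _ (by decide))) (hX _ (tb _ _ _ (by decide))) (hX _ (tb _ _ _ (by decide))) (hX _ (tb _ _ _ (by decide)))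

theorem lf_25 (s : ℕ) (hw : s % 22 + 2 ≤ 22) : PatOK (0x200000c0000100000000001 <<< s) (1 <<< (s + 22)) 1 := by
  refine leafOK _ _ fun X hX ha => copy_4 s hw X (hX _ (tb _ _ _ (by decide))) ha (hX _ (tb _ _ _ (by decide))) (hX _ (tb _ _ _ (by decide))) (hX _ (tb _ _ _ (by decide))) (hX _ (tb _ _ _ (by decide)))

theorem lf_26 (s : ℕ) (hw : s % 22 + 2 ≤ 22) : PatOK (0x200000c0000000000400001 <<< s) (1 <<< (s + 44)) 1 := by
  refine leafOK _ _ fun X hX ha => copy_4 s hw X (hX _ (tb _ _ _ (by decide))) (hX _ (tb _ _ _ (by decide))) ha (hX _ (tb _ _ _ (by decide))) (hX _ (tb _ _ _ (by decide))) (hX _ (tb _ _ _ (by decide)))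

theorem lf_27 (s : ℕ) (hw : s % 22 + 2 ≤ 22) : PatOK (0x20000080000100000400001 <<< s) (1 <<< (s + 66)) 1 := by
  refine leafOK _ _ fun X hX ha => copy_4 s hw X (hX _ (tb _ _ _ (by decide))) (hX _ (tb _ _ _ (by decide))) (hX _ (tb _ _ _ (by decide))) ha (hX _ (tb _ _ _ (by decide))) (hX _ (tb _ _ _ (by decide)))

theorem lf_28 (s : ℕ) (hw : s % 22 + 2 ≤ 22) : PatOK (0x20000040000100000400001 <<< s) (1 <<< (s + 67)) 1 := by
  refine leafOK _ _ fun X hX ha => copy_4 s hw X (hX _ (tb _ _ _ (by decide))) (hX _ (tb _ _ _ (by decide))) (hX _ (tb _ _ _ (by decide))) (hX _ (tb _ _ _ (by decide))) ha (hX _ (tb _ _ _ (by decide)))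

theorem lf_29 (s : ℕ) (hw : s % 22 + 2 ≤ 22) : PatOK (0xc0000100000400001 <<< s) (1 <<< (s + 89)) 1 := by
  refine leafOK _ _ fun X hX ha => copy_4 s hw X (hX _ (tb _ _ _ (by decide))) (hX _ (tb _ _ _ (by decide))) (hX _ (tb _ _ _ (by decide))) (hX _ (tb _ _ _ (by decide))) (hX _ (tb _ _ _ (by decide))) ha

theorem lf_30 (s : ℕ) (hw : s % 22 + 2 ≤ 22) : PatOK (0x40000100000c00002 <<< s) (1 <<< (s + 88)) 1 := by
  refine leafOK _ _ fun X hX ha => copy_5 s hw X ha (hX _ (tb _ _ _ (by decide))) (hX _ (tb _ _ _ (by decide))) (hX _ (tb _ _ _ (by decide))) (hX _ (tb _ _ _ (by decide))) (hX _ (tb _ _ _ (by decide)))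

theorem lf_31 (s : ℕ) (hw : s % 22 + 2 ≤ 22) : PatOK (0x10000000000100000c00002 <<< s) (1 <<< (s + 66)) 1 := by
  refine leafOK _ _ fun X hX ha => copy_5 s hw X (hX _ (tb _ _ _ (by decide))) ha (hX _ (tb _ _ _ (by decide))) (hX _ (tb _ _ _ (by decide))) (hX _ (tb _ _ _ (by decide))) (hX _ (tb _ _ _ (by decide)))

theorem lf_32 (s : ℕ) (hw : s % 22 + 2 ≤ 22) : PatOK (0x10000040000000000c00002 <<< s) (1 <<< (s + 44)) 1 := by
  refine leafOK _ _ fun X hX ha => copy_5 s hw X (hX _ (tb _ _ _ (by decide))) (hX _ (tb _ _ _ (by decide))) ha (hX _ (tb _ _ _ (by decide))) (hX _ (tb _ _ _ (by decide))) (hX _ (tb _ _ _ (by decide)))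

theorem lf_33 (s : ℕ) (hw : s % 22 + 2 ≤ 22) : PatOK (0x10000040000100000800002 <<< s) (1 <<< (s + 22)) 1 := by
  refine leafOK _ _ fun X hX ha => copy_5 s hw X (hX _ (tb _ _ _ (by decide))) (hX _ (tb _ _ _ (by decide))) (hX _ (tb _ _ _ (by decide))) ha (hX _ (tb _ _ _ (by decide))) (hX _ (tb _ _ _ (by decide)))

theorem lf_34 (s : ℕ) (hw : s % 22 + 2 ≤ 22) : PatOK (0x10000040000100000400002 <<< s) (1 <<< (s + 23)) 1 := by
  refine leafOK _ _ fun X hX ha => copy_5 s hw X (hX _ (tb _ _ _ (by decide))) (hX _ (tb _ _ _ (by decide))) (hX _ (tb _ _ _ (by decide))) (hX _ (tb _ _ _ (by decide))) ha (hX _ (tb _ _ _ (by decide)))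

theorem lf_35 (s : ℕ) (hw : s % 22 + 2 ≤ 22) : PatOK (0x10000040000100000c00000 <<< s) (1 <<< (s + 1)) 1 := by
  refine leafOK _ _ fun X hX ha => copy_5 s hw X (hX _ (tb _ _ _ (by decide))) (hX _ (tb _ _ _ (by decide))) (hX _ (tb _ _ _ (by decide))) (hX _ (tb _ _ _ (by decide))) (hX _ (tb _ _ _ (by decide))) ha

theorem lf_36 (s : ℕ) (hw : s % 22 + 2 ≤ 22) : PatOK (0x100000c0000200000800000 <<< s) (1 <<< (s + 1)) 1 := by
  refine leafOK _ _ fun X hX ha => copy_6 s hw X ha (hX _ (tb _ _ _ (by decide))) (hX _ (tb _ _ _ (by decide))) (hX _ (tb _ _ _ (by decide))) (hX _ (tb _ _ _ (by decide))) (hX _ (tb _ _ _ (by decide)))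

theorem lf_37 (s : ℕ) (hw : s % 22 + 2 ≤ 22) : PatOK (0x100000c0000200000000002 <<< s) (1 <<< (s + 23)) 1 := by
  refine leafOK _ _ fun X hX ha => copy_6 s hw X (hX _ (tb _ _ _ (by decide))) ha (hX _ (tb _ _ _ (by decide))) (hX _ (tb _ _ _ (by decide))) (hX _ (tb _ _ _ (by decide))) (hX _ (tb _ _ _ (by decide)))

theorem lf_38 (s : ℕ) (hw : s % 22 + 2 ≤ 22) : PatOK (0x100000c0000000000800002 <<< s) (1 <<< (s + 45)) 1 := by
  refine leafOK _ _ fun X hX ha => copy_6 s hw X (hX _ (tb _ _ _ (by decide))) (hX _ (tb _ _ _ (by decide))) ha (hX _ (tb _ _ _ (by decide))) (hX _ (tb _ _ _ (by decide))) (hX _ (tb _ _ _ (by decide)))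

theorem lf_39 (s : ℕ) (hw : s % 22 + 2 ≤ 22) : PatOK (0x10000040000200000800002 <<< s) (1 <<< (s + 67)) 1 := by
  refine leafOK _ _ fun X hX ha => copy_6 s hw X (hX _ (tb _ _ _ (by decide))) (hX _ (tb _ _ _ (by decide))) (hX _ (tb _ _ _ (by decide))) ha (hX _ (tb _ _ _ (by decide))) (hX _ (tb _ _ _ (by decide)))

theorem lf_40 (s : ℕ) (hw : s % 22 + 2 ≤ 22) : PatOK (0x10000080000200000800002 <<< s) (1 <<< (s + 66)) 1 := by
  refine leafOK _ _ fun X hX ha => copy_6 s hw X (hX _ (tb _ _ _ (by decide))) (hX _ (tb _ _ _ (by decide))) (hX _ (tb _ _ _ (by decide))) (hX _ (tb _ _ _ (by decide))) ha (hX _ (tb _ _ _ (by decide)))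

theorem lf_41 (s : ℕ) (hw : s % 22 + 2 ≤ 22) : PatOK (0xc0000200000800002 <<< s) (1 <<< (s + 88)) 1 := by
  refine leafOK _ _ fun X hX ha => copy_6 s hw X (hX _ (tb _ _ _ (by decide))) (hX _ (tb _ _ _ (by decide))) (hX _ (tb _ _ _ (by decide))) (hX _ (tb _ _ _ (by decide))) (hX _ (tb _ _ _ (by decide))) ha

theorem lf_42 (s : ℕ) (hw : s % 22 + 2 ≤ 22) : PatOK (0x80000200000c00001 <<< s) (1 <<< (s + 89)) 1 := by
  refine leafOK _ _ fun X hX ha => copy_7 s hw X ha (hX _ (tb _ _ _ (by decide))) (hX _ (tb _ _ _ (by decide))) (hX _ (tb _ _ _ (by decide))) (hX _ (tb _ _ _ (by decide))) (hX _ (tb _ _ _ (by decide)))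

theorem lf_43 (s : ℕ) (hw : s % 22 + 2 ≤ 22) : PatOK (0x20000000000200000c00001 <<< s) (1 <<< (s + 67)) 1 := by
  refine leafOK _ _ fun X hX ha => copy_7 s hw X (hX _ (tb _ _ _ (by decide))) ha (hX _ (tb _ _ _ (by decide))) (hX _ (tb _ _ _ (by decide))) (hX _ (tb _ _ _ (by decide))) (hX _ (tb _ _ _ (by decide)))

theorem lf_44 (s : ℕ) (hw : s % 22 + 2 ≤ 22) : PatOK (0x20000080000000000c00001 <<< s) (1 <<< (s + 45)) 1 := by
  refine leafOK _ _ fun X hX ha => copy_7 s hw X (hX _ (tb _ _ _ (by decide))) (hX _ (tb _ _ _ (by decide))) ha (hX _ (tb _ _ _ (by decide))) (hX _ (tb _ _ _ (by decide))) (hX _ (tb _ _ _ (by decide)))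

theorem lf_45 (s : ℕ) (hw : s % 22 + 2 ≤ 22) : PatOK (0x20000080000200000400001 <<< s) (1 <<< (s + 23)) 1 := by
  refine leafOK _ _ fun X hX ha => copy_7 s hw X (hX _ (tb _ _ _ (by decide))) (hX _ (tb _ _ _ (by decide))) (hX _ (tb _ _ _ (by decide))) ha (hX _ (tb _ _ _ (by decide))) (hX _ (tb _ _ _ (by decide)))

theorem lf_46 (s : ℕ) (hw : s % 22 + 2 ≤ 22) : PatOK (0x20000080000200000800001 <<< s) (1 <<< (s + 22)) 1 := by
  refine leafOK _ _ fun X hX ha => copy_7 s hw X (hX _ (tb _ _ _ (by decide))) (hX _ (tb _ _ _ (by decide))) (hX _ (tb _ _ _ (by decide))) (hX _ (tb _ _ _ (by decide))) ha (hX _ (tb _ _ _ (by decide)))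

theorem lf_47 (s : ℕ) (hw : s % 22 + 2 ≤ 22) : PatOK (0x20000080000200000c00000 <<< s) (1 <<< (s + 0)) 1 := by
  refine leafOK _ _ fun X hX ha => copy_7 s hw X (hX _ (tb _ _ _ (by decide))) (hX _ (tb _ _ _ (by decide))) (hX _ (tb _ _ _ (by decide))) (hX _ (tb _ _ _ (by decide))) (hX _ (tb _ _ _ (by decide))) ha

def tabR : ℕ := 0x20000080000200000c00000000000000200000800002000008000010000000002000008000020000040000100000000020000080000000000c0000100000000020000000000200000c0000100000000000000080000200000c00001000000000000000c00002000008000020000000001000008000020000080000200000000010000040000200000800002000000000100000c0000000000800002000000000100000c0000200000000002000000000100000c000020000080000000000000010000040000100000c00000000000000100000400001000004000020000000001000004000010000080000200000000010000040000000000c0000200000000010000000000100000c0000200000000000000040000100000c00002000000000000000c00001000004000010000000002000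004000010000040000100000000020000080000100000400001000000000200000c0000000000400001000000000200000c0000100000000001000000000200000c000010000040000000000000000000000000000007800002000000000000000000000000078000010000000000000000000000000700000300000000000000000000000006800003000000000000000000000000058000030000000000000000000000000380000300000000000000000000000003c0000800000000000000000000000003c0001000000000000000000000000001c0001800000000000000000000000002c0001800000000000000000000000003400018000000000000000000000000038000180000000000000000000000000080001e0000000000000000000000000040001e00000000000000000000000000c0001c00000000000000000000000000c0001a00000000000000000000000000c0001600000000000000000000000000c0000e0000000000000000000000000200000f0000000000000000000000000400000f000000000000000000000000060000070000000000000000000000000600000b0000000000000000000000000600000d0000000000000000000000000600000e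
def tabA : ℕ := 0x16172d43595842432d17010117162c42585943422c160000011718191a0403191817161617010203041a1903020100
def tabW : ℕ := 0x222222222222222222222222555555555555555555555555

theorem lf_ok (k s : ℕ) (hk : k < 48) (hw : s % 22 + ((tabW >>> (4 * k)) &&& 15) ≤ 22) :
    PatOK (((tabR >>> (128 * k)) &&& 0xffffffffffffffffffffffffffffffff) <<< s)
      (1 <<< (s + ((tabA >>> (8 * k)) &&& 255))) 1 := by
  interval_cases k
  · exact lf_0 s hw
  · exact lf_1 s hw
  · exact lf_2 s hw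
  · exact lf_3 s hw
  · exact lf_4 s hw
  · exact lf_5 s hw
  · exact lf_6 s hw
  · exact lf_7 s hw
  · exact lf_8 s hw
  · exact lf_9 s hw
  · exact lf_10 s hw
  · exact lf_11 s hw
  · exact lf_12 s hw
  · exact lf_13 s hw
  · exact lf_14 s hw
  · exact lf_15 s hw
  · exact lf_16 s hw
  · exact lf_17 s hw
  · exact lf_18 s hw
  · exact lf_19 s hw
  · exact lf_20 s hw
  · exact lf_21 s hw
  · exact lf_22 s hw
  · exact lf_23 s hw
  · exact lf_24 s hw
  · exact lf_25 s hw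
  · exact lf_26 s hw
  · exact lf_27 s hw
  · exact lf_28 s hw
  · exact lf_29 s hw
  · exact lf_30 s hw
  · exact lf_31 s hw
  · exact lf_32 s hw
  · exact lf_33 s hw
  · exact lf_34 s hw
  · exact lf_35 s hw
  · exact lf_36 s hw
  · exact lf_37 s hw
  · exact lf_38 s hw
  · exact lf_39 s hw
  · exact lf_40 s hw
  · exact lf_41 s hw
  · exact lf_42 s hw
  · exact lf_43 s hw
  · exact lf_44 s hw
  · exact lf_45 s hw
  · exact lf_46 s hw
  · exact lf_47 s hw

end Crest.Agent.H3.Snaky
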